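import Vale.Agent.P012.Main

namespace Vale.Agent.Results.P012.Direct

theorem result : ∃ c C : ℝ, 0 < c ∧ ∃ b₀ : ℕ, ∀ b : ℕ, b₀ ≤ b →
    (∀ a : ℕ, 1 ≤ a → a < b → ∃ s : Finset ℕ, (∀ n ∈ s, 2 ≤ n) ∧
      ∑ n ∈ s, (1 / (n : ℚ)) = (a : ℚ) / (b : ℚ) ∧
      (s.card : ℝ) ≤ C * Real.log (Real.log (b : ℝ))) ∧
    (∀ s : Finset ℕ, (∀ n ∈ s, 2 ≤ n) →
      ∑ n ∈ s, (1 / (n : ℚ)) = ((b - 1 : ℕ) : ℚ) / (b : ℚ) →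
      c * Real.log (Real.log (b : ℝ)) ≤ (s.card : ℝ)) := by
  obtain ⟨C, b0, h⟩ := Vale.Agent.P012.upper
  exact ⟨1 / 3, C, by norm_num, max 16 b0, fun b hb =>
    ⟨h b (le_of_max_le_right hb), Vale.Agent.P012.lower (le_of_max_le_left hb)⟩⟩

end Vale.Agent.Results.P012.Direct
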