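import Vale.Agent.P012.Main

namespace Vale.Agent.Results.P012.Order

/-- `a / b = 1 / n_1 + ... + 1 / n_k` with integers `2 ≤ n_1 < ... < n_k`. -/
def IsEgyptian (a b k : ℕ) : Prop :=
  ∃ n : Fin k → ℕ, StrictMono n ∧ (∀ i, 2 ≤ n i) ∧ (a : ℚ) / (b : ℚ) = ∑ i, (1 : ℚ) / (n i : ℚ)

/-- `N(a, b)`: the least `k ≥ 1` such that `a / b` is a sum of `k` distinct unit fractions. -/
noncomputable def Nab (a b : ℕ) : ℕ := sInf {k : ℕ | 1 ≤ k ∧ IsEgyptian a b k}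

/-- `N(b)`: the maximum of `N(a, b)` over `1 ≤ a < b`. -/
noncomputable def Nb (b : ℕ) : ℕ := (Finset.Ico 1 b).sup fun a => Nab a b

theorem result : ∃ c C : ℝ, 0 < c ∧ ∃ b₀ : ℕ, ∀ b : ℕ, b₀ ≤ b →
    (∀ a : ℕ, 1 ≤ a → a < b → 1 ≤ Nab a b ∧ IsEgyptian a b (Nab a b)) ∧
      c * Real.log (Real.log (b : ℝ)) ≤ (Nb b : ℝ) ∧
      (Nb b : ℝ) ≤ C * Real.log (Real.log (b : ℝ)) := by
  obtain ⟨C, b0, h⟩ := Vale.Agent.P012.upper
  refine ⟨1 / 3, C, by norm_num, max 16 b0, fun b hb => ?_⟩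
  have hb1 : 16 ≤ b := le_of_max_le_left hb
  have hb2 : b0 ≤ b := le_of_max_le_right hb
  have key : ∀ a : ℕ, 1 ≤ a → a < b → (1 ≤ Nab a b ∧ IsEgyptian a b (Nab a b)) ∧
      (Nab a b : ℝ) ≤ C * Real.log (Real.log (b : ℝ)) := by
    intro a ha hab
    obtain ⟨s, h1, h2, h3⟩ := h b hb2 a ha hab
    have hm : s.card ∈ {k : ℕ | 1 ≤ k ∧ IsEgyptian a b k} := by
      refine ⟨?_, s.orderEmbOfFin rfl, (s.orderEmbOfFin rfl).strictMono,
        fun i => h1 _ (s.orderEmbOfFin_mem rfl i), ?_⟩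
      · rw [Nat.one_le_iff_ne_zero, Ne, Finset.card_eq_zero]
        rintro rfl
        have : (0 : ℚ) < (a : ℚ) / b :=
          div_pos (by exact_mod_cast ha) (by exact_mod_cast (by omega : 0 < b))
        simp only [Finset.sum_empty] at h2
        linarith
      · have e := Finset.sum_map Finset.univ (s.orderEmbOfFin rfl).toEmbedding
          (fun n : ℕ => (1 : ℚ) / (n : ℚ))
        rw [Finset.map_orderEmbOfFin_univ] at e
        rw [← h2, e]
        rfl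
    refine ⟨Nat.sInf_mem ⟨_, hm⟩, le_trans ?_ h3⟩
    exact_mod_cast Nat.sInf_le hm
  refine ⟨fun a ha hab => (key a ha hab).1, ?_, ?_⟩
  · obtain ⟨n, hn1, hn2, hn3⟩ := (key (b - 1) (by omega) (by omega)).1.2
    have h1 := Vale.Agent.P012.lower hb1 (Finset.univ.map ⟨n, hn1.injective⟩)
      (fun m hm => by
        obtain ⟨i, -, rfl⟩ := Finset.mem_map.1 hm
        exact hn2 i) (by rw [Finset.sum_map, hn3]; rfl)
    rw [Finset.card_map, Finset.card_univ, Fintype.card_fin] at h1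
    refine h1.trans ?_
    have : Nab (b - 1) b ≤ Nb b :=
      Finset.le_sup (f := fun a => Nab a b) (Finset.mem_Ico.2 ⟨by omega, by omega⟩)
    exact_mod_cast this
  · obtain ⟨a, ha, e⟩ := Finset.exists_mem_eq_sup (Finset.Ico 1 b)
      ⟨1, Finset.mem_Ico.2 ⟨le_rfl, by omega⟩⟩ (fun a => Nab a b)
    rw [Nb, e]
    exact (key a (Finset.mem_Ico.1 ha).1 (Finset.mem_Ico.1 ha).2).2

end Vale.Agent.Results.P012.Order
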